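/-
P235, line HUB, row [MAIN] (helper261): the induction over `HubSum`.
-/
import Vale.Agent.P235.Hub.Defs

namespace Vale.Agent.P235.Hub.H261

open Vale.Agent.P235 Vale.Agent.P235.R2.H598 Vale.Agent.P235.Hub

theorem rootTight_mono {V : Type} {d : V → V → ℝ} (hd : IsMet d) {s t : V} {c c' : ℝ}
    (h : RootTight d s t c) (hc : c' ≤ c) : RootTight d s t c' := by
  obtain ⟨F, h1, h2, h3, h4⟩ := h
  exact ⟨F, h1, h2, fun x y =>
    (mul_le_mul_of_nonneg_right hc (hd.nonneg x y)).trans (h3 x y), h4⟩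

theorem isMet_smul {V : Type} {d : V → V → ℝ} (hd : IsMet d) {θ : ℝ} (hθ : 0 < θ) :
    IsMet (fun x y => θ * d x y) := by
  refine ⟨fun x => ?_, fun x y hxy => ?_, fun x y => ?_, fun x y z => ?_⟩
  · show θ * d x x = 0
    rw [hd.self, mul_zero]
  · exact mul_pos hθ (hd.pos x y hxy)
  · show θ * d x y = θ * d y x
    rw [hd.symm]
  · show θ * d x z ≤ θ * d x y + θ * d y z
    rw [← mul_add]
    exact mul_le_mul_of_nonneg_left (hd.tri x y z) hθ.le

theorem gen_smul {V : Type} {G : SimpleGraph V} {d : V → V → ℝ} (hG : Gen G d) {θ : ℝ}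
    (hθ : 0 < θ) : Gen G (fun x y => θ * d x y) := by
  intro f hf x y
  have key : ∀ a b : V, |f a / θ - f b / θ| = |f a - f b| / θ := by
    intro a b
    rw [← sub_div, abs_div, abs_of_pos hθ]
  have h := hG (fun z => f z / θ) (fun u v huv => by
    show |f u / θ - f v / θ| ≤ d u v
    rw [key, div_le_iff₀ hθ, mul_comm]
    exact hf u v huv) x y
  have h' : |f x / θ - f y / θ| ≤ d x y := h
  rw [key, div_le_iff₀ hθ, mul_comm] at h'
  exact h'

/-- the metric of a piece, with a chosen root edge -/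
theorem piece_data {P : ∀ V : Type, SimpleGraph V → Prop} {c₁ C c : ℝ} {k : ℕ} (hC : 1 ≤ C)
    (hP : ∀ (V : Type) [Finite V] (G : SimpleGraph V), P V G → EdgeExact G c₁)
    (hPc : PieceStmt) (hcc1 : c ≤ c₁) (hcc2 : c ≤ 1 / (640 * (k + 1) * (2 * C + 3)))
    {V : Type} [Finite V] {G : SimpleGraph V} {E : V → V → Prop} (hp : Piece P C k G E)
    {d : V → V → ℝ} (hd : IsMet d) (hG : Gen G d) {s t : V} (hst : G.Adj s t) :
    ∃ D : V → V → ℝ, IsMet D ∧ Gen G D ∧ (∀ x y, 1 / (2 * C + 3) * d x y ≤ D x y) ∧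
      (∀ x y, D x y ≤ d x y) ∧ D s t = 1 / (2 * C + 3) * d s t ∧
      (∀ u v, G.Adj u v → E u v → D u v = 1 / (2 * C + 3) * d u v) ∧ RootTight D s t c := by
  have hθ : 0 < 1 / (2 * C + 3) := by positivity
  have hθ1 : 1 / (2 * C + 3) ≤ 1 := by
    rw [div_le_one (by positivity)]
    linarith
  rcases hp with hp | ⟨hconn, hdist, A, hAk, hEA⟩
  · have hm : IsMet (fun x y => 1 / (2 * C + 3) * d x y) := isMet_smul hd hθ
    have hg : Gen G (fun x y => 1 / (2 * C + 3) * d x y) := gen_smul hG hθ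
    refine ⟨fun x y => 1 / (2 * C + 3) * d x y, hm, hg, fun x y => le_rfl, fun x y => ?_, rfl,
      fun u v _ _ => rfl, ?_⟩
    · have := mul_le_mul_of_nonneg_right hθ1 (hd.nonneg x y)
      rw [one_mul] at this
      exact this
    · obtain ⟨F, h1, h2, h3, h4⟩ := hP V G hp _ hm hg s t hst
      exact rootTight_mono hm ⟨F, h1, h2, h3, h4⟩ hcc1
  · obtain ⟨D, hm, hg, h1, h2, h3, h4, h5⟩ := hPc C hC k V G hconn hdist A hAk d hd hG s t hst
    exact ⟨D, hm, hg, h1, h2, h3, fun u v huv he => h4 u v huv (hEA u v he),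
      rootTight_mono hm h5 hcc2⟩

theorem hub_induct {P : ∀ V : Type, SimpleGraph V → Prop} {c₁ C c : ℝ} {k : ℕ} (hC : 1 ≤ C)
    (hP : ∀ (V : Type) [Finite V] (G : SimpleGraph V), P V G → EdgeExact G c₁)
    (hR : RootStmt) (hAm : AmalgStmt) (hPc : PieceStmt) (hc : 0 < c) (hc1 : c ≤ 1)
    (hcc1 : c ≤ c₁) (hcc2 : c ≤ 1 / (640 * (k + 1) * (2 * C + 3)))
    {V : Type} {G : SimpleGraph V} {E : V → V → Prop} (hE : HubSum P C k G E) :
    Finite V → ∀ d : V → V → ℝ, IsMet d → Gen G d → (∃ s t, G.Adj s t) →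
      ∃ (D : V → V → ℝ) (s0 t0 : V), IsMet D ∧ Gen G D ∧
        (∀ x y, 1 / (2 * C + 3) * d x y ≤ D x y) ∧ (∀ x y, D x y ≤ d x y) ∧
        (∀ u v, G.Adj u v → E u v → D u v = 1 / (2 * C + 3) * d u v) ∧ G.Adj s0 t0 ∧
        ∀ D0 : ℝ, c / 2496 / 120 * D s0 t0 ≤ D0 → D0 ≤ D s0 t0 →
          ∃ F : V → V → ℝ, IsL1 F ∧ F s0 t0 = D0 ∧
            EmbOn Set.univ G D (c / 2496 / 120) (4 / (c / 2496 / 120)) s0 t0 F := by
  have hc0' : 0 < c / 2496 / 120 := by positivity
  have hK1 : 0 < 4 / (c / 2496 / 120) := by positivity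
  have hθ : 0 < 1 / (2 * C + 3) := by positivity
  induction hE with
  | @base V G E hp =>
    intro hfin d hd hG hex
    obtain ⟨s, t, hst⟩ := hex
    obtain ⟨D, hm, hg, h1, h2, h3, h4, h5⟩ := piece_data hC hP hPc hcc1 hcc2 hp hd hG hst
    exact ⟨D, s, t, hm, hg, h1, h2, h4, hst, fun D0 hD1 hD2 =>
      hR c hc hc1 V G D hm s t hst h5 D0 hD1 hD2⟩
  | @glue V G A B s t hs ht EA EB E hAB hI hno hst _ hEst hB hEE ih =>
    intro hfin d hd hG _
    have hsAB : s ∈ A ∩ B := by rw [hI]; exact Or.inl rfl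
    have htAB : t ∈ A ∩ B := by rw [hI]; exact Or.inr rfl
    obtain ⟨hsA, hsB⟩ := hsAB
    obtain ⟨htA, htB⟩ := htAB
    have hAB' : B ∪ A = Set.univ := by rw [Set.union_comm]; exact hAB
    have hI' : B ∩ A = {s, t} := by rw [Set.inter_comm]; exact hI
    have hno' : ∀ a b, a ∉ A → b ∉ B → ¬ G.Adj a b := fun a b ha hb h => hno b a hb ha h.symm
    have gA := gen_induce hd hG hAB hI hsA htA hst hno
    have gB := gen_induce hd hG hAB' hI' hsB htB hst hno'
    have mA : IsMet (fun x y : A => d x y) := isMet_induce hd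
    have mB : IsMet (fun x y : B => d x y) := isMet_induce hd
    have hstA : (G.induce A).Adj ⟨s, hsA⟩ ⟨t, htA⟩ := hst
    have hstB : (G.induce B).Adj ⟨s, hsB⟩ ⟨t, htB⟩ := hst
    obtain ⟨DA, s0, t0, mDA, gDA, lA, uA, eA, hst0, FAex⟩ :=
      ih inferInstance _ mA gA ⟨_, _, hstA⟩
    obtain ⟨DB, mDB, gDB, lB, uB, eB0, eB, rB⟩ :=
      piece_data hC hP hPc hcc1 hcc2 hB mB gB hstB
    have hDAst : DA ⟨s, hsA⟩ ⟨t, htA⟩ = 1 / (2 * C + 3) * d s t := eA _ _ hstA hEst
    have hDBst : DB ⟨s, hsB⟩ ⟨t, htB⟩ = 1 / (2 * C + 3) * d s t := eB0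
    obtain ⟨D, mD, gD, lD, uD, hDA, hDB⟩ := hAm V G d hd hG A B s t hAB hI hno _ hθ hsA htA hsB
      htB DA DB mDA mDB gDA gDB lA uA lB uB (by rw [hDAst, hDBst])
    have hDA' : DA = fun x y : A => D x y := by funext x y; exact (hDA x y).symm
    have hDB' : DB = fun x y : B => D x y := by funext x y; exact (hDB x y).symm
    subst hDA'
    subst hDB'
    refine ⟨D, s0, t0, mD, gD, lD, uD, ?_, hst0, ?_⟩
    · intro u v huv he
      rcases hEE u v he with ⟨hu, hv, h⟩ | ⟨hu, hv, h⟩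
      · exact eA ⟨u, hu⟩ ⟨v, hv⟩ huv h
      · exact eB ⟨u, hu⟩ ⟨v, hv⟩ huv h
    · intro D0 hD1 hD2
      obtain ⟨FA, iA, fA, EmA⟩ := FAex D0 hD1 hD2
      have low := EmA.low ⟨s, hsA⟩ trivial ⟨t, htA⟩ trivial hst
      have up := EmA.up ⟨s, hsA⟩ trivial ⟨t, htA⟩ trivial hst
      obtain ⟨FB, iB, fB, EmB⟩ := hR c hc hc1 B (G.induce B) _ mDB ⟨s, hsB⟩ ⟨t, htB⟩ hstB rB
        (FA ⟨s, hsA⟩ ⟨t, htA⟩) low up
      have hDpos : 0 < FA ⟨s, hsA⟩ ⟨t, htA⟩ := (mul_pos hc0' (mD.pos s t hst.ne)).trans_le low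
      obtain ⟨F, hF, hFA, hFB, hFAB⟩ := glue A B s t hAB hI FA FB iA iB hsA htA hsB htB _ hDpos
        rfl fB
      have EA' := EmA.transfer hFA
      have EB' := EmB.transfer hFB
      refine ⟨F, hF, ?_, ?_⟩
      · have := hFA s0 t0
        rw [fA] at this
        exact this
      · refine glue_step mD hc0' hK1.le hF hAB hsA htA hst hno s0.2 t0.2 hst0 EA' EB' ?_
        intro x hx z hz
        have e1 := hFAB ⟨x, hx⟩ ⟨z, hz⟩
        rw [← hFA, ← hFA, ← hFB, ← hFB, ← hFA] at e1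
        exact e1

/-- **[MAIN]** -/
theorem main_of (hR : RootStmt) (hAm : AmalgStmt) (hPc : PieceStmt) : MainStmt := by
  intro P c₁ C k hc₁ hc₁1 hC hP V _ G H E hHS hle hconn ℓ hℓ
  set M : ℝ := 1 / c₁ + 640 * (k + 1) * (2 * C + 3) with hM
  have hM1 : 1 / c₁ ≤ M := by rw [hM]; have : (0 : ℝ) ≤ 640 * (k + 1) * (2 * C + 3) := by positivity
                              linarith
  have hM2 : 640 * (k + 1) * (2 * C + 3) ≤ M := by
    rw [hM]; have : 0 ≤ 1 / c₁ := by positivity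
    linarith
  have hM0 : 1 ≤ M := le_trans ((one_le_div hc₁).2 hc₁1) hM1
  have hMp : 0 < M := by linarith
  have hc : 0 < 1 / M := by positivity
  have hc1 : 1 / M ≤ 1 := (div_le_one hMp).2 hM0
  have hcc1 : 1 / M ≤ c₁ := by
    rw [div_le_iff₀ hMp]
    rw [div_le_iff₀ hc₁] at hM1
    linarith
  have hcc2 : 1 / M ≤ 1 / (640 * (k + 1) * (2 * C + 3)) :=
    one_div_le_one_div_of_le (by positivity) hM2
  have hd := pathDist_isMet hconn hℓ
  have hgenG : Gen G (pathDist G ℓ) := by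
    intro f hf x y
    exact pathDist_gen hconn (fun u v huv => (hf u v huv).trans (pathDist_adj hℓ huv)) x y
  have hgen : Gen H (pathDist G ℓ) := fun f hf => hgenG f (fun u v huv => hf u v (hle huv))
  by_cases hV : ∃ s t : V, G.Adj s t
  · obtain ⟨s, t, hst⟩ := hV
    obtain ⟨D, s0, t0, mD, gD, lD, uD, -, hst0, hF⟩ := hub_induct hC hP hR hAm hPc hc hc1 hcc1
      hcc2 hHS inferInstance _ hd hgen ⟨s, t, hle hst⟩
    have hle' : 1 / M / 2496 / 120 * D s0 t0 ≤ D s0 t0 := by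
      have h0 := mD.nonneg s0 t0
      have h1 : 1 / M / 2496 / 120 ≤ 1 := by linarith only [hc1]
      calc 1 / M / 2496 / 120 * D s0 t0 ≤ 1 * D s0 t0 := mul_le_mul_of_nonneg_right h1 h0
        _ = _ := one_mul _
    obtain ⟨F, iF, -, hEmb⟩ := hF (D s0 t0) hle' le_rfl
    have hup : ∀ x y, F x y ≤ D x y :=
      iF.le_of_gen gD fun u v huv => hEmb.up u trivial v trivial huv
    have hlow : ∀ x y, D x y ≤ 29952000 * M * F x y := by
      intro x y
      have h1 := hEmb.sp' x trivial y trivial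
      have h2 : 5 * (5 * (4 / (1 / M / 2496 / 120))) * F x y = 29952000 * M * F x y := by
        field_simp; ring
      rw [h2] at h1
      exact h1
    have hC3 : 0 < 2 * C + 3 := by positivity
    refine (iF.smul (by positivity : (0 : ℝ) ≤ 29952000 * (2 * C + 3) * M)).embeds
      (fun x y => ?_) (fun x y => ?_)
    · have h1 := lD x y
      have h2 := hlow x y
      have h3 : pathDist G ℓ x y ≤ (2 * C + 3) * D x y := by
        have := mul_le_mul_of_nonneg_left h1 hC3.le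
        have e : (2 * C + 3) * (1 / (2 * C + 3) * pathDist G ℓ x y) = pathDist G ℓ x y := by
          field_simp
        rw [e] at this
        exact this
      have h4 := mul_le_mul_of_nonneg_left h2 hC3.le
      calc pathDist G ℓ x y ≤ (2 * C + 3) * D x y := h3
        _ ≤ (2 * C + 3) * (29952000 * M * F x y) := h4
        _ = 29952000 * (2 * C + 3) * M * F x y := by ring
    · exact mul_le_mul_of_nonneg_left ((hup x y).trans (uD x y)) (by positivity)
  · have hsub : ∀ x y : V, x = y := by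
      intro x y
      by_contra hxy
      obtain ⟨w⟩ := hconn x y
      cases w with
      | nil => exact hxy rfl
      | cons h p => exact hV ⟨_, _, h⟩
    refine (IsL1.zero : IsL1 (fun _ _ : V => (0 : ℝ))).embeds (fun x y => ?_) (fun x y => ?_)
    · rw [hsub x y, hd.self]
    · rw [hsub x y, hd.self, mul_zero]

end Vale.Agent.P235.Hub.H261
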